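import Crest.Agent.X212.Mp86.TrgA
import Crest.Agent.X212.Mp86.Trg
import Crest.Agent.X212.Ixc71.Sd
import Crest.Agent.X212.Ixc71.Main
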